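/-
Helper84 / Snaky (S0047): shared definitions for the kernel-checked lemma table.

* `Wins d S Z`  : helper76's lemma calculus (notes/s0047/README_helper76.md).
* `cellOf W c`, `cells W X` : the bitboard dictionary (bit `c = y*W + x` ↦ cell `(x, y)`).
* `baseMask W o`, `pl W o a` : Snaky placements as bitboards (orientation `o < 8`, anchor `a` =
  bit index of the min corner of the bounding box).
Only definitions here; the lemmas about them live in other files.
-/
import Crest.Agent.Helper20.Snaky.Bridge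

set_option autoImplicit false

namespace Crest.Agent.Helper84.Snaky

open Crest.Agent.Helper20.Snaky

/-- `Wins d S Z`: in every position whose Maker stones contain `S` and in which no cell of `Z` is
claimed by either player, Maker (to move) completes a Snaky within `d` further claims. -/
def Wins (d : ℕ) (S Z : Finset Cell) : Prop :=
  ∀ M B : Finset Cell, S ⊆ M → Disjoint Z M → Disjoint Z B → MWin d M B

/-- The board cell of bit index `c` for window width `W`: `c = y * W + x ↦ (x, y)`. -/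
def cellOf (W c : ℕ) : Cell := (((c % W : ℕ) : ℤ), ((c / W : ℕ) : ℤ))

/-- The set of cells of a bitboard. -/
def cells (W X : ℕ) : Finset Cell :=
  ((Finset.range (X + 1)).filter fun c => X.testBit c = true).image (cellOf W)

/-- Width of the bounding box of orientation `o`. -/
def plw (o : ℕ) : ℕ := bif Nat.blt o 4 then 5 else 2

/-- The six cells of orientation `o`, as offsets `(dx, dy)` from the min corner of the bounding box
(the table printed in the header of helper76's certificates). -/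
def ocells : ℕ → List (ℕ × ℕ)
  | 0 => [(0, 0), (1, 0), (2, 0), (3, 0), (3, 1), (4, 1)]
  | 1 => [(0, 1), (1, 1), (2, 1), (3, 1), (3, 0), (4, 0)]
  | 2 => [(4, 0), (3, 0), (2, 0), (1, 0), (1, 1), (0, 1)]
  | 3 => [(4, 1), (3, 1), (2, 1), (1, 1), (1, 0), (0, 0)]
  | 4 => [(0, 0), (0, 1), (0, 2), (0, 3), (1, 3), (1, 4)]
  | 5 => [(0, 4), (0, 3), (0, 2), (0, 1), (1, 1), (1, 0)]
  | 6 => [(1, 0), (1, 1), (1, 2), (1, 3), (0, 3), (0, 4)]
  | 7 => [(1, 4), (1, 3), (1, 2), (1, 1), (0, 1), (0, 0)]
  | _ => []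

/-- Bitboard of orientation `o` anchored at bit `0`, for window width `W`:
the bits `dy * W + dx` for `(dx, dy) ∈ ocells o`. -/
def baseMask (W o : ℕ) : ℕ :=
  match o with
  | 0 => Nat.lor 15 (Nat.shiftLeft 24 W)
  | 1 => Nat.lor (Nat.shiftLeft 15 W) 24
  | 2 => Nat.lor 30 (Nat.shiftLeft 3 W)
  | 3 => Nat.lor (Nat.shiftLeft 30 W) 3
  | 4 => Nat.lor (Nat.lor (Nat.lor (Nat.lor 1 (Nat.shiftLeft 1 W)) (Nat.shiftLeft 1 (2 * W)))
          (Nat.shiftLeft 3 (3 * W))) (Nat.shiftLeft 2 (4 * W))
  | 5 => Nat.lor (Nat.lor (Nat.lor (Nat.lor 2 (Nat.shiftLeft 3 W)) (Nat.shiftLeft 1 (2 * W)))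
          (Nat.shiftLeft 1 (3 * W))) (Nat.shiftLeft 1 (4 * W))
  | 6 => Nat.lor (Nat.lor (Nat.lor (Nat.lor 2 (Nat.shiftLeft 2 W)) (Nat.shiftLeft 2 (2 * W)))
          (Nat.shiftLeft 3 (3 * W))) (Nat.shiftLeft 1 (4 * W))
  | 7 => Nat.lor (Nat.lor (Nat.lor (Nat.lor 1 (Nat.shiftLeft 3 W)) (Nat.shiftLeft 2 (2 * W)))
          (Nat.shiftLeft 2 (3 * W))) (Nat.shiftLeft 2 (4 * W))
  | _ => 0

/-- The placement of orientation `o` with anchor bit `a` (`0` if `o ≥ 8` or the bounding box
would wrap around the right edge of the window). -/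
def pl (W o a : ℕ) : ℕ :=
  bif Nat.blt o 8 && Nat.ble (a % W + plw o) W then Nat.shiftLeft (baseMask W o) a else 0

end Crest.Agent.Helper84.Snaky
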